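import Vale.Agent.P057SA.Eg
import Vale.Agent.P057IV.Tr
import Vale.Agent.P057DW.Syi

/-!
The assembly of one stage.
-/

set_option linter.all false

open Matrix Finset Real
open Vale.Agent.P267.H775 Vale.Agent.P057G Vale.Agent.P057PC Vale.Agent.P057TP Vale.Agent.P057MA
open Vale.Agent.P057RG Vale.Agent.P057SG Vale.Agent.P057IV
open Vale.Agent.P057DP (Sel)
open Vale.Agent.P057SY (KS SYI)
open Vale.Agent.P057DW (grow_num ks_mono)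

namespace Vale.Agent.P057SA

noncomputable section

theorem ex_le {a b : ℝ} (h : a ≤ b) : exp (-b) ≤ exp (-a) := exp_le_exp.2 (neg_le_neg h)

section mono

variable {T : Tow} {n p r : ℕ} {R : Type} [Fintype R] [DecidableEq R] {Z : Sys T (Uv n p R) Unit}
  {f : ℤ → ℝ} {θ γ sig X X' : ℝ} {ξ : (Pg T n p R → ℤ) → Matrix (Fin r) (Lg T n p R) ℝ}
  {Ω : (Pg T n p R → ℤ) → (Lg T n p R → ℤ) → Prop}

theorem base_mono (h : Base Z γ X Ω) (hX : X ≤ X') : Base Z γ X' Ω :=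
  ⟨(ex_le hX).trans h.1, fun w z k => ⟨(h.2 w z k).1, (h.2 w z k).2.trans (exp_le_exp.2 hX)⟩⟩

theorem km_mono (h : KM Z f θ γ sig X ξ Ω) (hX : X ≤ X') : KM Z f θ γ sig X' ξ Ω :=
  ⟨h.1.trans hX, h.2.1, h.2.2.1.trans (exp_le_exp.2 hX), base_mono h.2.2.2.1 hX,
    fun w z k => (ex_le hX).trans (h.2.2.2.2 w z k)⟩

theorem pws_mono {σ : Sel (Fin r)} {F : Fin σ.t → (Lb T (cU : Uv n p R → _) Unit (n + 2) → ℤ) → ℝ}
    (h : PWS Z f θ γ sig X ξ σ F Ω) (hX : X ≤ X') : PWS Z f θ γ sig X' ξ σ F Ω := by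
  obtain ⟨h1, h2, h3, ⟨H, h4, h5⟩, h6, h7, h8⟩ := h
  exact ⟨h1.trans hX, h2, h3.trans (exp_le_exp.2 hX), ⟨H, h4, h5.trans (exp_le_exp.2 hX)⟩, h6,
    base_mono h7 hX, fun w z k => ⟨(ex_le hX).trans (h8 w z k).1,
      fun a => (ex_le hX).trans ((h8 w z k).2 a)⟩⟩

end mono

section pw

variable {T T' T'' : Tow} {N : ℝ} {P : ℕ → ℝ} {i j k : ℕ}

theorem gp {x : ℝ} (hx : 3 ≤ x) (i j : ℕ) : x ^ i + (1 + x ^ i) * x ^ j ≤ x ^ (i + j + 1) := by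
  have h1 : 1 ≤ x ^ i := one_le_pow₀ (by linarith)
  have h2 : 1 ≤ x ^ j := one_le_pow₀ (by linarith)
  have h3 := mul_le_mul_of_nonneg_left hx (mul_nonneg (zero_le_one.trans h1) (zero_le_one.trans h2))
  rw [pow_succ, pow_add]
  nlinarith

theorem grow_pw (h3 : ∀ e, 3 ≤ P e) (h : T.Grow N T' fun e => P e ^ i)
    (h' : T'.Grow N T'' fun e => P e ^ j) (hk : i + j + 1 ≤ k) : T.Grow N T'' fun e => P e ^ k :=
  fun e => have h0 : 0 ≤ P (e + 1) := by linarith [h3 (e + 1)]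
    grow_num (dm_nonneg T e) (h e).1 (h e).2 (h' e).1 (h' e).2 (pow_nonneg h0 _) (pow_nonneg h0 _)
      ((gp (h3 _) i j).trans (pow_le_pow_right₀ (by linarith [h3 (e + 1)]) hk))

theorem cx_pw (h3 : ∀ e, 3 ≤ P e) (ha : ∀ e, P (e + 1) ≤ P e) (h : T.Cx N fun e => P e ^ i)
    (h' : T.Grow N T' fun e => P e ^ j) (hk : i + j + 1 ≤ k) : T'.Cx N fun e => P e ^ k := fun e => by
  have h1 := (gp (h3 e) i j).trans (pow_le_pow_right₀ (by linarith [h3 e]) hk)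
  have h2 : P (e + 1) ^ j ≤ P e ^ j := pow_le_pow_left₀ (by linarith [h3 (e + 1)]) (ha e) j
  have h0 : 0 ≤ P (e + 1) ^ j := pow_nonneg (by linarith [h3 (e + 1)]) j
  have h4 : (T.dm e + 1) * P (e + 1) ^ j ≤ (1 + P e ^ i) * P e ^ j :=
    mul_le_mul (by linarith [(h e).1]) h2 h0 (by linarith [(h e).1, dm_nonneg T e])
  have h5 := mul_nonneg (dm_nonneg T e) h0
  constructor <;> linarith [(h e).1, (h e).2, (h' e).1, (h' e).2]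

end pw

/-- the part between the state with correlations and the kernel state -/
theorem mid {s : ℕ} (hE : EN s) (hA : ROOTA) (hR : ROOT s) (n : ℕ) (hC : COVER (Option (Fin n)))
    (hI : INV (Option (Fin n))) (hM : ASM s) : ∃ c τ b : ℕ, 1 ≤ b ∧ b ≤ c ∧ ∀ (N : ℝ) (P : ℕ → ℝ)
    (T : Tow) (p : ℕ) (R : Type) [Fintype R] [DecidableEq R] (Z : Sys T (Uv n p R) Unit) (f : ℤ → ℝ)
    (θ sig : ℝ) (r : ℕ) (ξ : (Pg T n p R → ℤ) → Matrix (Fin r) (Lg T n p R) ℝ)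
    (σ : Sel (Fin r)) (F : Fin σ.t → (Lb T (cU : Uv n p R → _) Unit (n + 2) → ℤ) → ℝ)
    (Ω : (Pg T n p R → ℤ) → (Lg T n p R → ℤ) → Prop), Ctx s N c P T n p R Z f θ (P (n + 2)) →
    PWS Z f θ (exp (P (n + 2) ^ b)) sig (P (n + 2)) ξ σ F Ω →
    ∃ (T' : Tow) (Z' : Sys T' (Wv n p) Unit) (B κ σ' : ℝ), T'.Ok s N ∧ Z'.Ok ∧
      Up (n + 2) T' T ∧ T.Grow N T' (fun e => P e ^ c) ∧ B ≤ exp (P (n + 2) ^ c) ∧
      exp (-P (n + 2) ^ c) ≤ κ ∧ exp (-P 0 ^ c) ≤ σ' ∧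
      KS Z' Prod.fst (n + 2) f θ (n + 1) τ (P (n + 2) ^ c) B κ σ' := by
  obtain ⟨c3, k3, hE⟩ := hE
  obtain ⟨c4, k4, hR⟩ := hR
  obtain ⟨Cc, kc, hC⟩ := hC c3
  obtain ⟨Ci, hI⟩ := hI
  obtain ⟨cA, τ, kA, hM⟩ := hM (Ci + Cc)
  obtain ⟨eI, hI'⟩ : ∃ e, e = (c4 + 2) * Cc := ⟨_, rfl⟩
  obtain ⟨eA, hA'⟩ : ∃ e, e = eI * (Ci + c3 + c4 + s + 4) := ⟨_, rfl⟩
  obtain ⟨eZ, hZ'⟩ : ∃ e, e = eA * cA := ⟨_, rfl⟩
  obtain ⟨eC, hC'⟩ : ∃ e, e = eZ * (Ci + 1) := ⟨_, rfl⟩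
  obtain ⟨a, ha'⟩ : ∃ e, e = eC * Cc := ⟨_, rfl⟩
  obtain ⟨c, hc⟩ : ∃ e, e = a * (c3 + c4 + cA) + s + 17 := ⟨_, rfl⟩
  have n1 : c4 + 2 ≤ eI := hI' ▸ Nat.le_mul_of_pos_right _ kc
  have n2 : eI * Ci + eI * c3 + eI * c4 + eI * s + eI * 4 = eA := by rw [hA']; ring
  have n3 : eA ≤ eZ := hZ' ▸ Nat.le_mul_of_pos_right _ kA
  have n4 : eZ * Ci + eZ = eC := by rw [hC']; ring
  have n5 : eC ≤ a := ha' ▸ Nat.le_mul_of_pos_right _ kc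
  have n6 : a * c3 + a * c4 + a * cA + s + 17 = c := by rw [hc]; ring
  have n7 : a ≤ a * cA := Nat.le_mul_of_pos_right _ kA
  have n8 : 2 * c4 ≤ eI * c4 := Nat.mul_le_mul_right _ (by omega)
  have n9 : ∀ k, k ≤ a * k := fun k => Nat.le_mul_of_pos_left _ (by omega)
  have n10 : Cc ≤ eI := hI' ▸ Nat.le_mul_of_pos_left _ (by omega)
  have n11 : s ≤ eI * s := Nat.le_mul_of_pos_left _ (by omega)
  refine ⟨c, τ, eZ, by omega, by omega, fun N P T p R _ _ Z f θ sig r ξ σ F Ω h hW => ?_⟩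
  obtain ⟨x, hx⟩ : ∃ x, x = P (n + 2) := ⟨_, rfl⟩
  have cc : ∀ k : ℕ, k ≤ c → ∀ e, (k : ℝ) ≤ P e := fun k hk e =>
    le_trans (by exact_mod_cast hk) (h.lad.big e)
  have p3 : ∀ e, (3 : ℝ) ≤ P e := fun e => by exact_mod_cast cc 3 (by omega) e
  have p1 : ∀ e, (1 : ℝ) ≤ P e := fun e => by linarith only [p3 e]
  have x3 : 3 ≤ x := hx ▸ p3 _
  have x1 : 1 ≤ x := hx ▸ p1 _
  have pw : ∀ {i j : ℕ}, i ≤ j → x ^ i ≤ x ^ j := pow_le_pow_right₀ x1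
  have pp : ∀ {i k j : ℕ}, i * k ≤ j → (x ^ i) ^ k ≤ x ^ j := fun h => by
    rw [← pow_mul]; exact pw h
  have pq : ∀ {i k j : ℕ}, j ≤ i * k → x ^ j ≤ (x ^ i) ^ k := fun h => by
    rw [← pow_mul]; exact pw h
  have px : ∀ {i : ℕ}, 1 ≤ i → x ≤ x ^ i := fun h => le_self_pow₀ x1 (by omega)
  have x2 : 3 * x ≤ x ^ 2 := by nlinarith only [x3]
  have cx : ∀ k, k ≤ c → a * k ≤ c → ∀ Q : ℕ → ℝ, Lad s N c Q → (∀ e, P e ≤ Q e) →
      Q (n + 2) ≤ x ^ a → Ctx s N k Q T n p R Z f θ (x ^ a) := fun k h1 h2 Q h3 h4 h5 =>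
    ⟨lad_mono h3 (by exact_mod_cast h1), h.ok, cx_mono h.cx h4, h.zok, h.ns, h.u01, h.t0, h.t4,
      h.p1, h.pP.trans (h4 _), h.rP.trans (h4 _), h5,
      lfd_mono h.ok h.lf le_rfl (hx ▸ pp h2) (hx ▸ pp h2)⟩
  have xa : x ≤ x ^ a := px (by omega)
  have g1 : 1 ≤ exp (x ^ eZ) := one_le_exp (by positivity)
  have g2 : exp (x ^ eZ) ≤ exp (x ^ a) := exp_le_exp.2 (pw (by omega))
  have g0 : ∀ k : ℕ, k ≤ c → log (P 0 ^ k) ≤ x ^ 2 := fun k hk => by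
    rw [log_pow, sq]
    exact mul_le_mul (hx ▸ cc _ hk _) (h.lad.lg.trans (hx ▸ lad_le h.lad (by have := h.ns; omega)))
      (log_nonneg (p1 0)) (by linarith only [x1])
  have g3 : (P 0 ^ a) ^ cA ≤ exp (x ^ 2) := by
    rw [← pow_mul]
    exact (log_le_iff_le_exp (pow_pos (by linarith only [p1 0]) _)).1 (g0 _ (by omega))
  have g4 : ∀ {i : ℕ}, 2 ≤ i → (P 0 ^ a) ^ cA ≤ exp (x ^ i) := fun h => g3.trans (exp_le_exp.2 (pw h))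
  rw [← hx] at hW
  obtain ⟨Q, q1, q2, q3⟩ := hE N P T n p R Z f θ (x ^ a) _ (exp (x ^ eZ)) sig x (x ^ eI) r ξ σ F Ω
    (cx c3 (by have := n9 c3; omega) (by omega) P h.lad (fun _ => le_rfl) (hx ▸ xa)) hx.ge
    (px (by omega)) (pw (by omega)) (exp_le_exp.2 (pp (by omega))) g2
    (exp_le_exp.2 (pp (by omega))) g2 le_rfl hW
  obtain ⟨r1, r2, r3, r4, r5⟩ := hR N P T n p R Z f θ (x ^ a) (exp (x ^ eZ)) (exp (x ^ eZ)) (x ^ 2)
    (cx c4 (by have := n9 c4; omega) (by omega) P h.lad (fun _ => le_rfl) (hx ▸ xa))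
    (hx ▸ px (by omega)) (pw (by omega)) g1 g2 (exp_le_exp.2 (pp (by omega))) g2
  have la : Lad s N c fun e => P e ^ a := lad_pow h.lad (by exact_mod_cast (show 1 ≤ c by omega))
    (a := fun _ => a) (fun _ => le_rfl) (fun _ => by omega) (by exact_mod_cast (show a ≤ c by omega))
  have hM' := hM N (fun e => P e ^ a) T n p R Z f θ (exp (x ^ eZ)) (exp (x ^ eZ)) ((P 0 ^ a) ^ cA)
    sig (x ^ eA) r ξ σ F Ω
  simp only [← hx] at hM'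
  have zA : (x ^ eA) ^ cA = x ^ eZ := by rw [← pow_mul, hZ']
  rw [zA] at hM'
  obtain ⟨Gd, m1, m2, m3⟩ := hM' (cx cA (by have := n9 cA; omega) (by omega) _ la
    (fun e => le_self_pow₀ (p1 e) (by omega)) (hx ▸ le_rfl))
    ((hx ▸ cc cA (by have := n9 cA; omega) _ : (cA : ℝ) ≤ x).trans (px (by omega))) (pw (by omega))
    ((g0 a (by omega)).trans (pw (by omega)))
    (fun z => (eg_le h (by omega) z).trans (exp_le_exp.2 (hx ▸ pw (by omega))))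
    le_rfl (g4 (by omega)) (g4 (by omega)) le_rfl g2 le_rfl g2 (pws_mono hW (px (by omega)))
  clear hM hM' hE hR
  have ra := fun D => hA s N T n p R Z (exp (x ^ eZ)) (exp (x ^ eZ)) D h.ok h.zok (exp_pos _)
    (exp_pos _)
  have hk : (Fintype.card (Fin σ.t) : ℝ) ≤ x := by
    obtain ⟨h1, -, -, ⟨H, h4, -⟩, -⟩ := hW
    have := h4.ht
    rw [Fintype.card_fin] at this ⊢
    exact le_trans (by exact_mod_cast this) h1
  have ty : ∀ _ : Fin σ.t, ({none} : Finset (Option (Fin n))).Nonempty ∧ Disjoint {none} (BB n) :=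
    fun _ => ⟨singleton_nonempty _, disjoint_singleton_left.2 (notMem_erase _ _)⟩
  have iC : (x ^ (c4 + 2)) ^ Cc = x ^ eI := by rw [← pow_mul, hI']
  have aC : (x ^ eC) ^ Cc = x ^ a := by rw [← pow_mul, ha']
  have hC' := hC _ _ (root Z (exp (x ^ eZ)) (exp (x ^ eZ))) (wD Z) (BB n) (Fin σ.t) (fun _ => {none})
    (fun D a x => fm (frq σ ξ a) (rmap D x)) (fun D y => (Mg (root Z (exp (x ^ eZ)) (exp (x ^ eZ)) D)
      (x ^ a) ∧ Gd D (Ci + Cc) (rootS Z (exp (x ^ eZ)) (exp (x ^ eZ)) D) id) ∧ Q (rp (rmap D y)))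
    (x ^ (c4 + 2)) (x ^ eC) Ci Gd
  rw [iC, aC] at hC'
  have d0 : exp (-x ^ (c4 + 2)) ≤ (∑' w, wP Z w * P057T1.ind (Q w)) / 2 - exp (-x ^ 2) := by
    have h1 : exp (-x ^ 2 + x) ≤ exp (-(2 * x)) := exp_le_exp.2 (by linarith only [x2])
    have h2 := ex_le (pw (show 2 ≤ c4 + 2 by omega))
    rw [exp_add] at h1
    nlinarith only [h1, h2, q2, add_one_le_exp x, x3, exp_pos (-x ^ 2)]
  have y2 : 2 * x ^ 2 ≤ x ^ eA := le_trans (by nlinarith only [x3, x2]) (pw (show 3 ≤ eA by omega))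
  obtain ⟨D, j, X₁, φ₁, E₁, v1, v2, v3, v4, v5, v6, v7, v8, v9, v10, v11, v12⟩ := hC' r1 r2 r3
    (fun D => ⟨(ra D).1, (ra D).2.1⟩)
    ((hx ▸ cc Cc (by omega) _ : (Cc : ℝ) ≤ x).trans (px (by omega))) (pw (by omega)) ty
    (fun D a => (ra D).2.2.1 _) (fun D z z' k e => ⟨e.1, (ra D).2.2.2 Q z z' k e.2⟩)
    (r4.trans (exp_le_exp.2 (hx ▸ pw (by omega)))) (hk.trans (px (by omega))) (fun D y e => e.1)
    (fun D => (m1 D).mono Subset.rfl (one_le_exp (by positivity)) (g4 (by omega))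
      (exp_le_exp.2 (pw n5)) (pw (by omega)) (pw (by omega)) (ex_le (pw (by omega))))
    (d0.trans (r5 Q (fun D => Gd D (Ci + Cc) (rootS Z (exp (x ^ eZ)) (exp (x ^ eZ)) D) id)
      (m2.trans (ex_le y2))))
    fun y μ h1 h2 h3 h4 b hb U h5 h6 h7 => by
      obtain ⟨b, rfl⟩ := Option.ne_none_iff_exists'.1 (ne_of_mem_erase hb)
      exact q3 y μ b U ((px (by omega)).trans h1) h2 h3 (h4.trans (exp_le_exp.2 (pw n5))) h5
        (fun D z e => ⟨(h6 D z e).1.1, (h6 D z e).2⟩) h7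
  clear hC hC'
  have hI' := hI X₁ (BB n) ∅ (Fin σ.t) (fun _ => {none}) (fun a w => fm (frq σ ξ a) (rmap D (φ₁ w)))
    E₁ (x ^ eI) (x ^ eZ) fun j X' g => Gd D j X' (φ₁ ∘ g)
  simp only [union_empty] at hI'
  have i1 : (x ^ eI) ^ Ci ≤ x ^ eA := pp (by omega)
  have i2 : (x ^ eZ) ^ Ci ≤ x ^ a := pp (by omega)
  have i3 : 1 ≤ exp (x ^ eI) := one_le_exp (by positivity)
  have cl := (m1 D).mono Subset.rfl i3 (g4 (by omega)) (exp_le_exp.2 i2)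
    (i1.trans (pw (by omega))) le_rfl (ex_le i1)
  obtain ⟨j', X₂, φ₂, E₂, d, L, w1, w2, w3, w4, w5, w6, w7, w8, w9, w10, w11⟩ := hI' v4 v5
    (by linarith only [px (show 1 ≤ eI by omega), x3]) (pw (by omega)) (disjoint_empty_right _) ty
    v11 v8 v7 (hk.trans (px (by omega))) v10 v12 (v6.mono v4 v5 (pp (by omega)))
    ⟨fun j X' g => cl.1 j X' _, fun j X' g => cl.2 j X' (φ₁ ∘ g)⟩ v3
  obtain ⟨o1, o2, o3⟩ := w2.ok i3 v4 v5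
  obtain ⟨T', Z', B, κ, σ', t1, t2, t3, t4, t5, t6, t7, t8⟩ := m3 D (j + j') X₂ (φ₁ ∘ φ₂) E₂ d L
    (by omega) ((v2.mono Subset.rfl (g4 (by omega)) (exp_le_exp.2 (pw n5)) (pw (by omega))).trans
      (w2.mono Subset.rfl (g4 (by omega)) (exp_le_exp.2 i2) (i1.trans (pw (by omega))))) w3 o1 o2
    w4 w5 (fun z e => by
      obtain ⟨y, hy⟩ := o3.int z
      have h1 := w6 z e
      rw [Function.comp, hy] at *
      exact (ex_le (by linarith only [y2, x2, x1])).trans (q1 _ (v9 y h1).2))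
    ((ex_le i1).trans w7) w8 (w9.trans (exp_le_exp.2 i1)) w10
    fun z e a => (w11 z e a).mono (exp_le_exp.2 i1)
  have f1 : ∀ e, (P e ^ a) ^ cA ≤ P e ^ c := fun e => by
    rw [← pow_mul]; exact pow_le_pow_right₀ (p1 e) (by omega)
  rw [hx] at t5 t6 t8
  exact ⟨T', Z', B, κ, σ', t1, t2, t3, grow_mono t4 f1, t5.trans (exp_le_exp.2 (f1 _)),
    (ex_le (f1 _)).trans t6, (ex_le (f1 _)).trans t7, ks_mono t8 le_rfl (f1 _)⟩

/-- the statement of the stage for a fixed number of classes -/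
def SG (s : ℕ) (ε : ℝ) (n c : ℕ) : Prop :=
  ∀ (N : ℝ) (P : ℕ → ℝ) (T : Tow) (p : ℕ) (f : ℤ → ℝ) (θ : ℝ), Lad s N c P → T.Ok s N → T.Cx N P →
    n + 1 ≤ s → Unit01 f → exp (-P (s + 1)) ≤ θ → θ ≤ 4 → 1 ≤ p → (p : ℝ) ≤ P (n + 2) →
    GS T (n + 1) f p θ → T.LFd (n + 1) (P (n + 2) ^ c) (P (n + 2) ^ c) →
    ∃ (T' : Tow) (q : ℕ) (Z : Sys T' (Fin n × Fin q) Unit) (B κ σ : ℝ), T'.Ok s N ∧ Z.Ok ∧
      Up (n + 2) T' T ∧ T.Grow N T' (fun e => P e ^ c) ∧ 1 ≤ q ∧ (q : ℝ) ≤ P (n + 2) ^ c ∧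
      B ≤ exp (P (n + 2) ^ c) ∧ exp (-P (n + 2) ^ c) ≤ κ ∧ exp (-P 1 ^ c) ≤ σ ∧
      Z.SP Prod.fst (n + 2) f ((1 - ε) * θ) B κ σ

theorem sg_mono {s n c c' : ℕ} {ε : ℝ} (h : SG s ε n c) (h1 : 1 ≤ c) (hc : c ≤ c') :
    SG s ε n c' := fun N P T p f θ hL hT hC hn hf t1 t2 p1 p2 hG hF => by
  have k : ∀ e, P e ^ c ≤ P e ^ c' := fun e =>
    pow_le_pow_right₀ (le_trans (by exact_mod_cast h1.trans hc) (hL.big e)) hc
  obtain ⟨T', q, Z, B, κ, σ, a1, a2, a3, a4, a5, a6, a7, a8, a9, a10⟩ := h N P T p f θ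
    (lad_mono hL (by exact_mod_cast hc)) hT hC hn hf t1 t2 p1 p2 hG
    (lfd_mono hT hF le_rfl (k _) (k _))
  exact ⟨T', q, Z, B, κ, σ, a1, a2, a3, grow_mono a4 k, a5, a6.trans (k _),
    a7.trans (exp_le_exp.2 (k _)), (ex_le (k _)).trans a8, (ex_le (k _)).trans a9, a10⟩

theorem one {s : ℕ} (h1 : S1 s) (h2 : DROP s) (hE : EN s) (hA : ROOTA) (hR : ROOT s) (n : ℕ)
    (hC : COVER (Option (Fin n))) (hI : INV (Option (Fin n))) (hM : ASM s) (hS : SYI s) {ε : ℝ}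
    (e0 : 0 < ε) (e1 : ε ≤ 1 / 10) : ∃ c, 1 ≤ c ∧ SG s ε n c := by
  obtain ⟨c1, k1, h1⟩ := h1 ε e0 e1
  obtain ⟨c2, k2, h2⟩ := h2
  obtain ⟨cM, τ, b, b1, b2, hM⟩ := mid hE hA hR n hC hI hM
  obtain ⟨cS, hS⟩ := hS τ
  obtain ⟨e2, he2⟩ : ∃ e, e = (c1 + 3) * c2 := ⟨_, rfl⟩
  obtain ⟨g, hg⟩ : ∃ e, e = e2 * b := ⟨_, rfl⟩
  obtain ⟨e3, he3⟩ : ∃ e, e = e2 * cM + c1 + s + 5 := ⟨_, rfl⟩
  obtain ⟨c, hc⟩ : ∃ e, e = g * c1 + g * c2 + e3 * cS + e3 + c2 + cM + cS + g := ⟨_, rfl⟩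
  have n1 : c1 + 3 ≤ e2 := he2 ▸ Nat.le_mul_of_pos_right _ k2
  have n2 : e2 ≤ g := hg ▸ Nat.le_mul_of_pos_right _ b1
  refine ⟨c, by omega, fun N P T p f θ hL hT hC hn hf t1 t2 p1 p2 hG hF => ?_⟩
  obtain ⟨x, hx⟩ : ∃ x, x = P (n + 2) := ⟨_, rfl⟩
  have cc : ∀ k : ℕ, k ≤ c → ∀ e, (k : ℝ) ≤ P e := fun k hk e =>
    le_trans (by exact_mod_cast hk) (hL.big e)
  have p3 : ∀ e, (3 : ℝ) ≤ P e := fun e => by exact_mod_cast cc 3 (by omega) e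
  have q1 : ∀ e, (1 : ℝ) ≤ P e := fun e => by linarith only [p3 e]
  have x3 : 3 ≤ x := hx ▸ p3 _
  have x1 : 1 ≤ x := hx ▸ q1 _
  have pw : ∀ {i j : ℕ}, i ≤ j → x ^ i ≤ x ^ j := pow_le_pow_right₀ x1
  have pp : ∀ {i k j : ℕ} (e), i * k ≤ j → (P e ^ i) ^ k ≤ P e ^ j := fun e h => by
    rw [← pow_mul]; exact pow_le_pow_right₀ (q1 e) h
  have px : ∀ {i : ℕ}, 1 ≤ i → x ≤ x ^ i := fun h => le_self_pow₀ x1 (by omega)
  have la : ∀ a k : ℕ, 2 ≤ a → a ≤ c → k ≤ c → Lad s N k fun e => P e ^ a := fun a k u v w =>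
    lad_mono (lad_pow hL (by exact_mod_cast (show 1 ≤ c by omega)) (a := fun _ => a)
      (fun _ => le_rfl) (fun _ => u) (by exact_mod_cast v)) (by exact_mod_cast w)
  have lf : ∀ i k : ℕ, 1 ≤ i * k → i * k + 1 ≤ c →
      T.LFd (n + 1) ((x ^ i) ^ k) ((x ^ i) ^ k + c1) := fun i k u v => by
    have : (x ^ i) ^ k + c1 ≤ x ^ c := by
      have h3 : (c1 : ℝ) ≤ x ^ (i * k) := (hx ▸ cc c1 (by omega) _ : (c1 : ℝ) ≤ x).trans (px u)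
      have h4 := mul_le_mul_of_nonneg_left x3 (pow_nonneg (zero_le_one.trans x1) (i * k))
      rw [← pow_mul]
      refine le_trans ?_ (pw v)
      rw [pow_succ]
      linarith only [h3, h4, Nat.cast_nonneg (α := ℝ) c1]
    rw [← hx] at hF
    exact lfd_mono hT hF le_rfl ((le_add_of_nonneg_right (Nat.cast_nonneg _)).trans this) this
  have t0 : 0 ≤ θ := (exp_pos _).le.trans t1
  have u0 : 0 ≤ (1 - ε) * θ := mul_nonneg (by linarith only [e1]) t0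
  have u4 : (1 - ε) * θ ≤ 4 := by nlinarith only [t0, t2, e0]
  have pP : ∀ {i : ℕ}, 1 ≤ i → (p : ℝ) ≤ x ^ i := fun h => (hx ▸ p2 : (p : ℝ) ≤ x).trans (px h)
  have l1 : (x ^ g) ^ c1 ≤ P (n + 2) ^ c := hx ▸ pp (n + 2) (show g * c1 ≤ c by omega)
  obtain ⟨T₁, R, _, _, Z, sig, r, ξ, Ω, a1, a2, a3, a4, a5, a6, a7⟩ := h1 N P T n p f θ (x ^ g)
    (exp (x ^ g)) (lad_mono hL (by exact_mod_cast (show c1 ≤ c by omega))) hT hC hn hf t1 t2 p1 p2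
    hG (hx ▸ px (by omega)) (lfd_mono hT hF le_rfl l1 l1)
    (exp_le_exp.2 (hx ▸ pw (by omega))) le_rfl
  have C1 : T₁.Cx N fun e => P e ^ (c1 + 3) :=
    cx_pw (i := 1) p3 hL.anti (by simpa using hC) a4 (by omega)
  have cx : ∀ a k i : ℕ, c1 + 3 ≤ a → a ≤ i → 1 ≤ k → a ≤ c → k ≤ c → i * k + 1 ≤ c →
      Ctx s N k (fun e => P e ^ a) T₁ n p R Z f ((1 - ε) * θ) (x ^ i) := fun a k i u v w u' v' w' =>
    ⟨la a k (by omega) u' v', a1, cx_mono C1 fun e => pow_le_pow_right₀ (q1 e) u, a2, hn, hf, u0,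
      u4, p1, hx ▸ pP (by omega), le_trans (by exact_mod_cast a6) (hx ▸ pP (by omega)), hx ▸ pw v,
      a5 _ _ (lf i k (Nat.mul_pos (by omega) w) w')⟩
  obtain ⟨σ, F, Ω', hW⟩ := h2 N _ T₁ n p R Z f _ (x ^ g) (exp (x ^ g)) sig (x ^ (c1 + 3)) r ξ Ω
    (cx (c1 + 3) c2 g le_rfl (by omega) k2 (by omega) (by omega) (by omega)) (hx ▸ le_rfl)
    (one_le_exp (by positivity)) le_rfl (km_mono a7 (hx ▸ pw (by omega)))
  rw [← pow_mul, ← he2, hg, pow_mul, hx] at hW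
  obtain ⟨T₂, Z₂, B, κ, σ', d1, d2, d3, d4, d5, d6, d7, d8⟩ := hM N (fun e => P e ^ e2) T₁ p R Z f _
    sig r ξ σ F Ω' (hx ▸ cx e2 cM e2 n1 le_rfl (by omega) (by omega) (by omega) (by omega)) hW
  simp only [← pow_mul] at d4
  have w1 : (Fintype.card (Wv n p) : ℝ) ≤ P (n + 2) ^ e3 := by
    rw [Fintype.card_prod, Fintype.card_fin, Fintype.card_fin, Nat.cast_mul, ← hx]
    refine le_trans ?_ (pw (show 2 ≤ e3 by omega))
    rw [sq]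
    exact mul_le_mul (hx ▸ cc n (by omega) _) (hx ▸ p2) (Nat.cast_nonneg _) (by linarith only [x1])
  have w2 : ((cells (Prod.fst : Wv n p → Fin n)).card : ℝ) ≤ P (n + 2) ^ e3 := by
    rw [card_wv, Nat.cast_pow, ← hx]
    exact (pow_le_pow_left₀ (Nat.cast_nonneg _) (hx ▸ p2) n).trans (pw (by omega))
  have f1 : ∀ e, (P e ^ e2) ^ cM ≤ P e ^ e3 := fun e => pp e (by omega)
  obtain ⟨T₃, Z₃, B', κ', σ'', g1, g2, g3, g4, g5, g6, g7, g8⟩ := hS N (fun e => P e ^ e3) T₂ _ _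
    Prod.fst (n + 2) (n + 1) Z₂ f _ B κ σ' (la e3 cS (by omega) (by omega) (by omega)) d1
    (cx_pw p3 hL.anti C1 d4 (by omega)) d2 (by omega) (by omega) hf u0 u4 w1 w2
    (d5.trans (exp_le_exp.2 (f1 _))) ((ex_le (f1 _)).trans d6) ((ex_le (f1 _)).trans d7)
    (ks_mono d8 le_rfl (f1 _))
  simp only [← pow_mul] at g4
  have f2 : ∀ e, (P e ^ e3) ^ cS ≤ P e ^ c := fun e => pp e (by omega)
  exact ⟨T₃, p, Z₃, B', κ', σ'', g1, g2, up_trans g3 (up_trans d3 a3),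
    grow_pw p3 (grow_pw p3 a4 d4 le_rfl) g4 (by omega), p1, hx ▸ pP (by omega),
    g5.trans (exp_le_exp.2 (f2 _)), (ex_le (f2 _)).trans g6, (ex_le (f2 _)).trans g7, g8⟩

theorem stg (s : ℕ) : STG s := fun h1 h2 hE hA hR hC hI hM hS ε e0 e1 => by
  choose c k h using fun n => one h1 h2 hE hA hR n (hC n) (hI n) hM hS e0 e1
  exact ⟨∑ n ∈ range s, c n, fun N P T n p f θ hL hT hC hn => sg_mono (h n) (k n)
    (single_le_sum (fun _ _ => Nat.zero_le _) (mem_range.2 hn)) N P T p f θ hL hT hC hn⟩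

end

end Vale.Agent.P057SA
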