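import Vale.Agent.P057SG.Plan
import Vale.Agent.P057GH.Pt
import Vale.Agent.P057SH.Mass
import Vale.Agent.P057TE.Thb

/-!
Bounds for the sums over the upper levels.
-/

set_option linter.all false

open Matrix Finset Real
open Vale.Agent.P267.H775 Vale.Agent.P057G Vale.Agent.P057PC Vale.Agent.P057TP Vale.Agent.P057SG
open Vale.Agent.P057GH

namespace Vale.Agent.P057SA

noncomputable section

variable {T : Tow} {s : ℕ} {N : ℝ}

theorem ms_up (hT : T.Ok s N) (hN : 1 ≤ N) {m : ℕ} {X : ℝ} (h1 : 1 ≤ X)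
    (hX : ∀ e, m ≤ e → T.dm e ≤ X ∧ T.yy N e ≤ X) :
    ms (bk T.G fun a => m ≤ T.lv a) (fun _ => 0) ≤ exp (s * (17 * X ^ 2)) := by
  have k := ms_zero_le ((Icc 1 s).filter (m ≤ ·)) (B := exp (17 * X ^ 2)) _ (fun a => T.lv a.1)
    (bk T.G fun a => m ≤ T.lv a) (posDef_bk hT.pd _) (fun a b h => hT.blk _ _ h)
    (fun a => mem_filter.2 ⟨mem_Icc.2 ⟨hT.pos _, hT.le _⟩, a.2⟩) fun e he => by
      have h2 := (mem_filter.1 he).2
      refine le_trans (le_of_eq ?_) ((P057TE.ms_blk hT hN e).trans (exp_le_exp.2 ?_))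
      · exact ms_equiv (Equiv.subtypeSubtypeEquivSubtype (p := fun a => m ≤ T.lv a)
          (q := fun a => T.lv a = e) fun {x} hx => hx ▸ h2) (fun _ _ => rfl) fun _ _ => rfl
      · have h0 : 0 ≤ T.dm e := Nat.cast_nonneg _
        have h3 := pow_le_pow_left₀ (by linarith) (show T.dm e + 1 ≤ 2 * X by
          linarith [(hX e h2).1]) 2
        nlinarith [(hX e h2).2]
  rw [exp_nat_mul]
  exact k.trans (pow_le_pow_right₀ (one_le_exp (by positivity))
    ((card_filter_le _ _).trans (by simp)))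

theorem F_le {C W S : Type} [Fintype W] [DecidableEq W] [Fintype S] {cl : W → C} {m : ℕ}
    (hT : T.Ok s N) (hN : 1 ≤ N) {Z : Sys T W S} (hZ : Z.Ok) {f : ℤ → ℝ} (hf : Unit01 f) {X : ℝ}
    (h1 : 1 ≤ X) (hX : ∀ e, m ≤ e → T.dm e ≤ X ∧ T.yy N e ≤ X) (z : Lb T cl S m → ℤ)
    (c : Finset W) (t : S) : Z.F cl m f z c t ≤ exp (s * (17 * X ^ 2)) :=
  (F_le_ms hT hZ hf z c t).trans ((P057SH.ms_tri_le (posDef_bk hT.pd _)
    (fun a b h => hT.blk _ _ h) (tri_up hT hZ z c t)).trans (ms_up hT hN h1 hX))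

variable {c : ℕ} {P : ℕ → ℝ} {n p : ℕ} {R : Type} [Fintype R] [DecidableEq R]
  {Z : Sys T (Uv n p R) Unit} {f : ℤ → ℝ} {θ A : ℝ}

theorem pg_nonneg (hf : Unit01 f) (z : Lb T (cU : Uv n p R → _) Unit (n + 2) → ℤ) :
    0 ≤ PG Z f z := prod_nonneg fun _ _ => F_nonneg Z hf _ _ _

theorem card_wv : (cells (Prod.fst : Wv n p → Fin n)).card = p ^ n := by
  simpa using card_cells (C := Fin n) (N := Fin p)

theorem cells_le (h : Ctx s N c P T n p R Z f θ A) :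
    ((cells (Prod.fst : Wv n p → Fin n)).card : ℝ) ≤ P (n + 2) ^ s := by
  have h1 : (1 : ℝ) ≤ p := by exact_mod_cast h.p1
  rw [card_wv, Nat.cast_pow]
  exact (pow_le_pow_left₀ (by linarith) h.pP n).trans
    (pow_le_pow_right₀ (h1.trans h.pP) (by have := h.ns; omega))

theorem pw_le (h : Ctx s N c P T n p R Z f θ A) (hc : s + 17 ≤ c) :
    exp (s * (17 * P (n + 2) ^ 2)) ^ (cells (Prod.fst : Wv n p → Fin n)).card ≤
      exp (P (n + 2) ^ (s + 4)) := by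
  have h1 : (s : ℝ) + 17 ≤ P (n + 2) := le_trans (by exact_mod_cast hc) (h.lad.big _)
  have h0 : (0 : ℝ) ≤ s := Nat.cast_nonneg _
  rw [← exp_nat_mul, pow_add]
  refine exp_le_exp.2 (mul_le_mul (cells_le h) ?_ (by positivity) (pow_nonneg (by linarith) _))
  rw [← mul_assoc, show 4 = 2 + 2 from rfl, pow_add]
  exact mul_le_mul_of_nonneg_right (by nlinarith) (sq_nonneg _)

theorem pg_le (h : Ctx s N c P T n p R Z f θ A) (hc : s + 17 ≤ c)
    (z : Lb T (cU : Uv n p R → _) Unit (n + 2) → ℤ) : PG Z f z ≤ exp (P (n + 2) ^ (s + 4)) := by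
  have h1 : (s : ℝ) + 17 ≤ P (n + 2) := le_trans (by exact_mod_cast hc) (h.lad.big _)
  have h0 : (0 : ℝ) ≤ s := Nat.cast_nonneg _
  have ha := antitone_nat_of_succ_le h.lad.anti
  refine le_trans ?_ (pw_le h hc)
  rw [← prod_const]
  exact prod_le_prod (fun _ _ => F_nonneg Z h.u01 _ _ _) fun _ _ => F_le h.ok h.lad.one h.zok h.u01
    (by linarith) (fun e he => ⟨(h.cx e).1.trans (ha he), (h.cx e).2.trans (ha he)⟩) _ _ _

theorem th_le (h : Ctx s N c P T n p R Z f θ A) (hc : s + 17 ≤ c) :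
    θ ^ (cells (Prod.fst : Wv n p → Fin n)).card ≤ exp (P (n + 2) ^ (s + 4)) := by
  have h1 : (s : ℝ) + 17 ≤ P (n + 2) := le_trans (by exact_mod_cast hc) (h.lad.big _)
  have h0 : (1 : ℝ) ≤ s := by exact_mod_cast (show 1 ≤ s by have := h.ns; omega)
  refine (pow_le_pow_left₀ h.t0 (h.t4.trans ?_) _).trans (pw_le h hc)
  have h2 : 1 ≤ P (n + 2) ^ 2 := one_le_pow₀ (by linarith)
  nlinarith [add_one_le_exp (s * (17 * P (n + 2) ^ 2))]

theorem eg_le (h : Ctx s N c P T n p R Z f θ A) (hc : s + 17 ≤ c)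
    (z : Lb T (cU : Uv n p R → _) Unit (n + 2) → ℤ) : |EG Z f θ z| ≤ exp (P (n + 2) ^ (s + 4)) := by
  have h1 := pow_nonneg h.t0 (cells (Prod.fst : Wv n p → Fin n)).card
  rw [EG, abs_le]
  constructor <;> linarith [pg_le h hc z, th_le h hc, pg_nonneg (Z := Z) h.u01 z]

end

end Vale.Agent.P057SA
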